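import Crest.Agent.N250.G.Bern

/-!
# Row 250: interior Bernstein estimate, the algebraic step at a maximum point (helper76)
-/

set_option autoImplicit false
set_option linter.unusedSectionVars false

noncomputable section

namespace Crest.Agent.N250

open Crest.Agent.N222

namespace Be

theorem root (n : ℕ) (m : ℝ) (hm : 1 ≤ m) : ∃ l : ℝ, 1 ≤ l ∧ l ^ (n + 1) = m := by
  refine ⟨m ^ ((n + 1 : ℕ) : ℝ)⁻¹, Real.one_le_rpow hm (by positivity), ?_⟩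
  exact Real.rpow_inv_natCast_pow (by linarith) (Nat.succ_ne_zero n)

theorem young (ε y l m : ℝ) (hε : 0 < ε) (hy : 0 ≤ y) (hl : 0 ≤ l) (hm : l ^ 3 ≤ m) :
    y * (l * m) ≤ ε * m ^ 2 + y ^ 3 / (2 * ε ^ 2) := by
  have hm0 : 0 ≤ m := le_trans (by positivity) hm
  have h0 : 0 ≤ y ^ 3 / (2 * ε ^ 2) := by positivity
  rcases le_or_gt y (ε * l ^ 2) with h | h
  · have : y * (l * m) ≤ ε * l ^ 2 * (l * m) := mul_le_mul_of_nonneg_right h (by positivity)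
    have h2 : ε * l ^ 2 * (l * m) = ε * m * l ^ 3 := by ring
    have h3 : ε * m * l ^ 3 ≤ ε * m * m := mul_le_mul_of_nonneg_left hm (by positivity)
    nlinarith
  · have h1 : y * (l * m) ≤ ε * m ^ 2 / 2 + (y * l) ^ 2 / (2 * ε) := by
      have : ε * m ^ 2 / 2 + (y * l) ^ 2 / (2 * ε) - y * (l * m) = (ε * m - y * l) ^ 2 / (2 * ε) := by
        field_simp; ring
      have : 0 ≤ (ε * m - y * l) ^ 2 / (2 * ε) := by positivity
      linarith
    have h2 : (y * l) ^ 2 / (2 * ε) ≤ y ^ 3 / (2 * ε ^ 2) := by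
      rw [div_le_div_iff₀ (by positivity) (by positivity)]
      have : y ^ 2 * (ε * l ^ 2) ≤ y ^ 2 * y := mul_le_mul_of_nonneg_left h.le (by positivity)
      nlinarith
    have : 0 ≤ ε * m ^ 2 := by positivity
    linarith

theorem seven (C s : ℝ) (hC : 0 ≤ C) (hs : 0 ≤ s) : C * s ^ 7 ≤ s ^ 8 / 2 + C * (2 * C) ^ 7 := by
  rcases le_or_gt s (2 * C) with h | h
  · have : C * s ^ 7 ≤ C * (2 * C) ^ 7 := mul_le_mul_of_nonneg_left (pow_le_pow_left₀ hs h 7) hC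
    have : 0 ≤ s ^ 8 / 2 := by positivity
    linarith
  · have : (2 * C) * s ^ 7 ≤ s * s ^ 7 := mul_le_mul_of_nonneg_right h.le (by positivity)
    have : 0 ≤ C * (2 * C) ^ 7 := by positivity
    nlinarith

/-- the real inequality for the product `(Λ + u_k) u_{k+1}` -/
theorem real_step (A C1 C2 C3 : ℝ) (hA : 0 ≤ A) (h1 : 0 ≤ C1) (h2 : 0 ≤ C2) :
    ∃ Λ C : ℝ, 1 ≤ Λ ∧ 0 ≤ C ∧ ∀ a y z s l m Ba Bb G : ℝ, 0 ≤ a → a ≤ A → 0 ≤ y → 1 ≤ s →
      s ^ 2 = max 1 y → m = max 1 z → 0 ≤ z → 0 ≤ l → l ^ 3 ≤ m →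
      Ba ≤ -2 * y ^ 2 + C1 * s ^ 3 → Bb ≤ -2 * z ^ 2 + C2 * (y * (s ^ 4 + l * m)) →
      |G| ≤ C3 * (y ^ 2 * z) → (Λ + a) * Bb + Ba * y ^ 2 - 2 * G ≤ -y ^ 4 + C := by
  obtain ⟨Λ, hΛ⟩ : ∃ Λ : ℝ, Λ = 4 * C3 ^ 2 + 1 := ⟨_, rfl⟩
  obtain ⟨ε, hε0, hε1⟩ : ∃ ε : ℝ, 0 < ε ∧ C2 * ε ≤ 1 := ⟨1 / (C2 + 1), by positivity, by
    rw [mul_one_div, div_le_one (by positivity)]; linarith⟩
  obtain ⟨C6, hC60, hC6⟩ : ∃ C6 : ℝ, 0 ≤ C6 ∧ C6 = C2 / (2 * ε ^ 2) := ⟨_, by positivity, rfl⟩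
  obtain ⟨C4, hC40, hC4⟩ : ∃ C4 : ℝ, 0 ≤ C4 ∧ C4 = C2 + 1 + C6 := ⟨_, by positivity, rfl⟩
  have hΛ1 : 1 ≤ Λ := by rw [hΛ]; linarith only [sq_nonneg C3]
  have hΛ0 : 0 ≤ Λ := by linarith only [hΛ1]
  obtain ⟨C5, hC50, hC5⟩ : ∃ C5 : ℝ, 0 ≤ C5 ∧ C5 = C1 + (Λ + A) * C4 := ⟨_, by positivity, rfl⟩
  refine ⟨Λ, 1 + C5 * (2 * C5) ^ 7, hΛ1, by positivity, ?_⟩
  intro a y z s l m Ba Bb G ha haA hy hs hsy hm hz hl hlm hBa hBb hG
  have hs0 : 0 ≤ s := by linarith only [hs]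
  have hys : y ≤ s ^ 2 := hsy ▸ le_max_right _ _
  have hm2 : m ^ 2 ≤ 1 + z ^ 2 := by
    rcases le_total 1 z with h | h
    · rw [hm, max_eq_right h]; linarith only
    · rw [hm, max_eq_left h]; linarith only [sq_nonneg z]
  have e8 : 0 ≤ y ^ 4 := by positivity
  have hs8 : s ^ 8 ≤ 1 + y ^ 4 := by
    have : s ^ 8 = (s ^ 2) ^ 4 := by ring
    rw [this, hsy]
    rcases le_total 1 y with h | h
    · rw [max_eq_right h]; linarith only
    · rw [max_eq_left h]; linarith only [e8]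
  have hs6 : 1 ≤ s ^ 6 := one_le_pow₀ hs
  have hy3 : y ^ 3 ≤ s ^ 6 := by
    have := pow_le_pow_left₀ hy hys 3
    calc y ^ 3 ≤ (s ^ 2) ^ 3 := this
      _ = s ^ 6 := by ring
  have hys4 : y * s ^ 4 ≤ s ^ 6 := by
    have := mul_le_mul_of_nonneg_right hys (show 0 ≤ s ^ 4 by positivity)
    calc y * s ^ 4 ≤ s ^ 2 * s ^ 4 := this
      _ = s ^ 6 := by ring
  have hyo := young ε y l m hε0 hy hl hlm
  have e1 : C2 * (y * (l * m)) ≤ (1 + z ^ 2) + C6 * s ^ 6 := by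
    have a1 : C2 * (y * (l * m)) ≤ C2 * (ε * m ^ 2 + y ^ 3 / (2 * ε ^ 2)) :=
      mul_le_mul_of_nonneg_left hyo h2
    have a2 : C2 * ε * m ^ 2 ≤ 1 * m ^ 2 := mul_le_mul_of_nonneg_right hε1 (sq_nonneg m)
    have a3 : C6 * y ^ 3 ≤ C6 * s ^ 6 := mul_le_mul_of_nonneg_left hy3 hC60
    have a4 : C2 * (ε * m ^ 2 + y ^ 3 / (2 * ε ^ 2)) = C2 * ε * m ^ 2 + C6 * y ^ 3 := by
      rw [hC6]; ring
    linarith only [a1, a2, a3, a4, hm2]
  have e2 : Bb ≤ -z ^ 2 + C4 * s ^ 6 := by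
    have a1 : C2 * (y * s ^ 4) ≤ C2 * s ^ 6 := mul_le_mul_of_nonneg_left hys4 h2
    have a2 : C4 * s ^ 6 = C2 * s ^ 6 + s ^ 6 + C6 * s ^ 6 := by rw [hC4]; ring
    have a3 : C2 * (y * (s ^ 4 + l * m)) = C2 * (y * s ^ 4) + C2 * (y * (l * m)) := by ring
    linarith only [a1, a2, a3, e1, hBb, hs6]
  have hs67 : s ^ 6 ≤ s ^ 7 := pow_le_pow_right₀ hs (by norm_num)
  have e3 : (Λ + a) * Bb ≤ -Λ * z ^ 2 + (Λ + A) * C4 * s ^ 7 := by
    have a1 : (Λ + a) * Bb ≤ (Λ + a) * (-z ^ 2 + C4 * s ^ 6) :=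
      mul_le_mul_of_nonneg_left e2 (by positivity)
    have a2 : (Λ + a) * (C4 * s ^ 6) ≤ (Λ + A) * (C4 * s ^ 7) :=
      mul_le_mul (by linarith only [haA]) (mul_le_mul_of_nonneg_left hs67 hC40) (by positivity)
        (by positivity)
    have a3 : 0 ≤ a * z ^ 2 := by positivity
    have a4 : (Λ + a) * (-z ^ 2 + C4 * s ^ 6) =
        -Λ * z ^ 2 - a * z ^ 2 + (Λ + a) * (C4 * s ^ 6) := by ring
    have a5 : (Λ + A) * (C4 * s ^ 7) = (Λ + A) * C4 * s ^ 7 := by ring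
    linarith only [a1, a2, a3, a4, a5]
  have e4 : Ba * y ^ 2 ≤ -2 * y ^ 4 + C1 * s ^ 7 := by
    have a1 : Ba * y ^ 2 ≤ (-2 * y ^ 2 + C1 * s ^ 3) * y ^ 2 :=
      mul_le_mul_of_nonneg_right hBa (sq_nonneg y)
    have a2 : y ^ 2 ≤ s ^ 4 := by
      have := pow_le_pow_left₀ hy hys 2
      calc y ^ 2 ≤ (s ^ 2) ^ 2 := this
        _ = s ^ 4 := by ring
    have a3 : C1 * s ^ 3 * y ^ 2 ≤ C1 * s ^ 3 * s ^ 4 :=
      mul_le_mul_of_nonneg_left a2 (by positivity)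
    have a4 : (-2 * y ^ 2 + C1 * s ^ 3) * y ^ 2 = -2 * y ^ 4 + C1 * s ^ 3 * y ^ 2 := by ring
    have a5 : C1 * s ^ 3 * s ^ 4 = C1 * s ^ 7 := by ring
    linarith only [a1, a3, a4, a5]
  have e5 : -2 * G ≤ y ^ 4 / 4 + 4 * C3 ^ 2 * z ^ 2 := by
    have a1 := neg_abs_le G
    have a2 := sq_nonneg (y ^ 2 / 2 - 2 * C3 * z)
    have a3 : (y ^ 2 / 2 - 2 * C3 * z) ^ 2 =
        y ^ 4 / 4 + 4 * C3 ^ 2 * z ^ 2 - 2 * (C3 * (y ^ 2 * z)) := by ring
    linarith only [a1, a2, a3, hG]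
  have e6 := seven C5 s hC50 hs0
  have e7 : C5 * s ^ 7 = C1 * s ^ 7 + (Λ + A) * C4 * s ^ 7 := by rw [hC5]; ring
  have e9 : -Λ * z ^ 2 + 4 * C3 ^ 2 * z ^ 2 ≤ 0 := by
    have : -Λ * z ^ 2 + 4 * C3 ^ 2 * z ^ 2 = -z ^ 2 := by rw [hΛ]; ring
    rw [this]; exact neg_nonpos.2 (sq_nonneg z)
  linarith only [e3, e4, e5, e6, e7, e8, e9, hs8]

/-- the real inequality at the maximum point -/
theorem real_max (B C : ℝ) (hB : 0 ≤ B) (hC : 0 ≤ C) (e y g Bg Bη Γ G : ℝ) (he : 0 < e) (he1 : e ≤ 1)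
    (hg0 : 0 ≤ g) (hg : g ≤ B * y ^ 2) (hBg : Bg ≤ -y ^ 4 + C) (hBη : Bη ≤ 5) (hΓ : Γ ≤ 4)
    (hG : e ^ 2 * G = -2 * e * g * Γ)
    (h : 0 ≤ e ^ 2 * Bg + (2 * e * Bη - 2 * Γ) * g - 4 * e * G) :
    e ^ 2 * g ≤ B * (C + 34 * B + 1) := by
  have hG' : e * G = -2 * g * Γ := by
    apply mul_left_cancel₀ he.ne'; linear_combination hG
  have h1 : 0 ≤ e ^ 2 * (-y ^ 4 + C) + 34 * g := by
    have a1 : e ^ 2 * Bg ≤ e ^ 2 * (-y ^ 4 + C) := mul_le_mul_of_nonneg_left hBg (sq_nonneg e)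
    have a2 : e * Bη ≤ 5 := by nlinarith
    have a3 : (e * Bη) * g ≤ 5 * g := mul_le_mul_of_nonneg_right a2 hg0
    have a4 : Γ * g ≤ 4 * g := mul_le_mul_of_nonneg_right hΓ hg0
    nlinarith
  set q := e ^ 2 * y ^ 2 with hq
  have hq0 : 0 ≤ q := by positivity
  have he2 : e ^ 2 ≤ 1 := by nlinarith
  have h2 : e ^ 2 * g ≤ B * q := by
    have := mul_le_mul_of_nonneg_left hg (sq_nonneg e)
    rw [hq]; linarith
  have h3 : q ^ 2 ≤ C + 34 * (B * q) := by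
    have a1 := mul_nonneg (sq_nonneg e) h1
    have a2 : e ^ 2 * e ^ 2 * C ≤ C := by
      have : e ^ 2 * e ^ 2 ≤ 1 := by nlinarith [sq_nonneg e]
      nlinarith
    have a3 : q ^ 2 = e ^ 2 * e ^ 2 * y ^ 4 := by rw [hq]; ring
    nlinarith
  have h4 : q ≤ C + 34 * B + 1 := by
    by_contra hc
    push Not at hc
    nlinarith
  exact h2.trans (mul_le_mul_of_nonneg_left h4 hB)

theorem abs_sumW_le {ι : Type} [Fintype ι] (k : ℕ) {F : List ι → ℝ} {c : ℝ}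
    (h : ∀ w, w.length = k → |F w| ≤ c) : |sumW k F| ≤ (Fintype.card ι : ℝ) ^ k * c := by
  rw [abs_le]
  constructor
  · have := sumW_le k (F := fun _ => -c) (G := F) fun w hw => (abs_le.1 (h w hw)).1
    rw [sumW_const] at this; linarith
  · have := sumW_le k (F := F) (G := fun _ => c) fun w hw => (abs_le.1 (h w hw)).2
    rwa [sumW_const] at this

theorem abs_sum_le {ι : Type} [Fintype ι] {F : ι → ℝ} {c : ℝ} (h : ∀ a, |F a| ≤ c) :
    |∑ a, F a| ≤ (Fintype.card ι : ℝ) * c := by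
  refine (Finset.abs_sum_le_sum_abs _ _).trans ?_
  simpa using Finset.sum_le_sum (s := Finset.univ) fun a _ => h a

section Alg

variable {R : Type} [CommRing R] [Algebra ℝ R] {ι : Type} [Fintype ι] [DecidableEq ι]
  {S : Mov R ι}

theorem ev_sumW (ev : R →ₐ[ℝ] ℝ) (k : ℕ) (F : List ι → R) :
    ev (sumW k F) = sumW k fun w => ev (F w) :=
  map_sumW ev.toRingHom.toAddMonoidHom k F

theorem box_u (H : S.IsMov) (k : ℕ) : S.box (S.u k) =
    2 * (∑ b, sumW k fun w => S.Dw w (S.n b) * S.box (S.Dw w (S.n b))) - 2 * S.u (k + 1) := by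
  let φ : R →+ R := AddMonoidHom.mk' S.box H.box_add
  have e : ∀ b, S.box (S.nk k (S.n b)) = 2 * (sumW k fun w => S.Dw w (S.n b) *
      S.box (S.Dw w (S.n b))) - 2 * S.nk (k + 1) (S.n b) := by
    intro b
    have h1 : S.box (S.nk k (S.n b)) = sumW k fun w => S.box (S.Dw w (S.n b) * S.Dw w (S.n b)) :=
      map_sumW φ k _
    have h2 : S.nk (k + 1) (S.n b) = sumW k fun w => S.gam (S.Dw w (S.n b)) (S.Dw w (S.n b)) := by
      simp only [Mov.nk, sumW, Mov.Dw, Pre.gam, sumW_sum]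
    rw [h1, h2, ← sumW_mul, sub_eq_add_neg, ← neg_mul, ← sumW_mul, ← sumW_add]
    exact sumW_congr k fun w _ => by rw [H.box_mul]; ring
  simp only [Mov.u, H.box_sum, e, Finset.sum_sub_distrib, Finset.mul_sum]

theorem D_u (H : S.IsHyp) (k : ℕ) (a : ι) : S.D a (S.u k) =
    2 * ∑ b, sumW k fun w => S.Dw w (S.n b) * S.Dw (a :: w) (S.n b) := by
  let φ : R →+ R := AddMonoidHom.mk' (S.D a) (H.add a)
  have e : ∀ b, S.D a (S.nk k (S.n b)) =
      2 * sumW k fun w => S.Dw w (S.n b) * S.Dw (a :: w) (S.n b) := by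
    intro b
    have h1 : S.D a (S.nk k (S.n b)) = sumW k fun w => S.D a (S.Dw w (S.n b) * S.Dw w (S.n b)) :=
      map_sumW φ k _
    rw [h1, ← sumW_mul]
    exact sumW_congr k fun w _ => by rw [H.mul, Mov.Dw]; ring
  simp only [Mov.u, H.toIsDS.D_sum, e, Finset.mul_sum]

/-- a bound for the double sums -/
theorem ev_pair_le (ev : R →ₐ[ℝ] ℝ) (k : ℕ) (F G : List ι → ι → R) {c d : ℝ} (hc : 0 ≤ c)
    (hF : ∀ w b, w.length = k → |ev (F w b)| ≤ c) (hG : ∀ w b, w.length = k → |ev (G w b)| ≤ d) :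
    |ev (∑ b, sumW k fun w => F w b * G w b)| ≤ (Fintype.card ι : ℝ) ^ (k + 1) * (c * d) := by
  rw [map_sum, pow_succ', mul_assoc]
  refine abs_sum_le fun b => ?_
  rw [ev_sumW]
  refine abs_sumW_le k fun w hw => ?_
  rw [map_mul, abs_mul]
  exact mul_le_mul (hF w b hw) (hG w b hw) (abs_nonneg _) hc

theorem abs_Dn_le (ev : R →ₐ[ℝ] ℝ) (k : ℕ) (w : List ι) (b : ι) (h : w.length = k) :
    |ev (S.Dw w (S.n b))| ≤ √(ev (S.u k)) :=
  Real.abs_le_sqrt (h ▸ S.ev_Dn_sq_le ev w b)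

/-- the differential inequality for `g = (Λ + u_k) u_{k+1}` -/
theorem box_g (k : ℕ) (hk : 1 ≤ k) {K : ℝ} (hK : 1 ≤ K) : ∃ Λ A C : ℝ, 1 ≤ Λ ∧ 0 ≤ A ∧ 0 ≤ C ∧
    ∀ (R : Type) [CommRing R] [Algebra ℝ R] (S : Mov R ι), S.IsMov → S.w = 0 →
      ∀ ev : R →ₐ[ℝ] ℝ, (∀ w b, w.length ≤ k → |ev (S.Dw w (S.n b))| ≤ K) →
      ev (S.u k) ≤ A ∧
      ev (S.box ((algebraMap ℝ R Λ + S.u k) * S.u (k + 1))) ≤ -ev (S.u (k + 1)) ^ 2 + C := by
  have hK0 : 0 ≤ K := by linarith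
  obtain ⟨Ca, hCa, ha⟩ := Wt.box_Dw_bound (ι := ι) k hK0
  obtain ⟨Cb, hCb, hb⟩ := Wt.box_Dw_bound (ι := ι) (k + 1) hK0
  set N : ℝ := (Fintype.card ι : ℝ) with hN
  have hN0 : 0 ≤ N := by positivity
  obtain ⟨Λ, C, hΛ, hC, hr⟩ := real_step (N ^ (k + 1) * (K * K)) (2 * N ^ (k + 1) * K * Ca)
    (2 * N ^ (k + 2) * Cb) (N * (2 * N ^ (k + 1) * K * (2 * N ^ (k + 2)))) (by positivity)
    (by positivity) (by positivity)
  refine ⟨Λ, N ^ (k + 1) * (K * K), C, hΛ, by positivity, hC, ?_⟩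
  intro R _ _ S H hw ev hB
  have hA : ev (S.u k) ≤ N ^ (k + 1) * (K * K) :=
    (le_abs_self _).trans (ev_pair_le ev k (fun w b => S.Dw w (S.n b)) (fun w b => S.Dw w (S.n b))
      hK0 (fun w b h => hB w b h.le) (fun w b h => hB w b h.le))
  refine ⟨hA, ?_⟩
  set y := √(ev (S.u (k + 1))) with hy
  set z := √(ev (S.u (k + 2))) with hz
  have hy0 : 0 ≤ y := Real.sqrt_nonneg _
  have hz0 : 0 ≤ z := Real.sqrt_nonneg _
  have hy2 : y ^ 2 = ev (S.u (k + 1)) := Real.sq_sqrt (S.ev_u_nonneg ev _)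
  have hz2 : z ^ 2 = ev (S.u (k + 2)) := Real.sq_sqrt (S.ev_u_nonneg ev _)
  obtain ⟨s, hs, hs2⟩ := root 1 (max 1 y) (le_max_left _ _)
  obtain ⟨l1, hl1, hl1e⟩ := root k (max 1 y) (le_max_left _ _)
  obtain ⟨l2, hl2, hl2e⟩ := root (k + 1) (max 1 z) (le_max_left _ _)
  have hs2' : s ^ 2 = max 1 y := hs2
  have hl1s : l1 ≤ s := by
    have : l1 ^ 2 ≤ s ^ 2 := by
      rw [hs2', ← hl1e]; exact pow_le_pow_right₀ hl1 (by omega)
    exact le_of_sq_le_sq (by simpa only [sq] using this) (by linarith) |>.trans le_rfl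
  have hl23 : l2 ^ 3 ≤ max 1 z := by rw [← hl2e]; exact pow_le_pow_right₀ hl2 (by omega)
  have low : ∀ l : ℝ, 1 ≤ l → ∀ w b, w.length ≤ k → |ev (S.Dw w (S.n b))| ≤ K * l ^ w.length :=
    fun l hl w b h => (hB w b h).trans (le_mul_of_one_le_right hK0 (one_le_pow₀ hl))
  have mid : ∀ l : ℝ, l1 ≤ l → ∀ w b, w.length ≤ k + 1 →
      |ev (S.Dw w (S.n b))| ≤ K * l ^ w.length := by
    intro l hl w b h
    rcases Nat.lt_or_ge w.length (k + 1) with h' | h'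
    · exact low l (hl1.trans hl) w b (by omega)
    · have e : w.length = k + 1 := by omega
      refine (abs_Dn_le ev _ w b e).trans ?_
      rw [e]
      calc y ≤ l1 ^ (k + 1) := hl1e ▸ le_max_right _ _
        _ ≤ l ^ (k + 1) := pow_le_pow_left₀ (by linarith) hl _
        _ ≤ K * l ^ (k + 1) := le_mul_of_one_le_left (pow_nonneg (by linarith) _) hK
  have top : ∀ w b, w.length ≤ k + 1 + 1 →
      |ev (S.Dw w (S.n b))| ≤ K * (max l1 l2) ^ w.length := by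
    intro w b h
    rcases Nat.lt_or_ge w.length (k + 2) with h' | h'
    · exact mid _ (le_max_left _ _) w b (by omega)
    · have e : w.length = k + 2 := by omega
      refine (abs_Dn_le ev _ w b e).trans ?_
      rw [e]
      calc z ≤ l2 ^ (k + 2) := hl2e ▸ le_max_right _ _
        _ ≤ (max l1 l2) ^ (k + 2) := pow_le_pow_left₀ (by linarith) (le_max_right _ _) _
        _ ≤ K * (max l1 l2) ^ (k + 2) :=
          le_mul_of_one_le_left (pow_nonneg (le_trans (by linarith) (le_max_left l1 l2)) _) hK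
  have p1 : l1 ^ (k + 2) ≤ s ^ 3 := by
    calc l1 ^ (k + 2) = l1 * l1 ^ (k + 1) := by ring
      _ = l1 * s ^ 2 := by rw [hl1e, hs2']
      _ ≤ s * s ^ 2 := mul_le_mul_of_nonneg_right hl1s (sq_nonneg s)
      _ = s ^ 3 := by ring
  have p2 : (max l1 l2) ^ (k + 1 + 2) ≤ s ^ 4 + l2 * max 1 z := by
    have a1 : l1 ^ (k + 1 + 2) ≤ s ^ 4 := by
      calc l1 ^ (k + 1 + 2) = l1 * l1 ^ (k + 2) := by ring
        _ ≤ s * s ^ 3 := mul_le_mul hl1s p1 (pow_nonneg (by linarith) _) (by linarith)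
        _ = s ^ 4 := by ring
    have a2 : l2 ^ (k + 1 + 2) = l2 * max 1 z := by rw [← hl2e]; ring
    have a3 : 0 ≤ s ^ 4 := by positivity
    have a4 : 0 ≤ l2 * max 1 z := mul_nonneg (by linarith) (le_trans zero_le_one (le_max_left _ _))
    rcases le_total l1 l2 with h | h
    · rw [max_eq_right h]; linarith
    · rw [max_eq_left h]; linarith
  have Ba : ev (S.box (S.u k)) ≤ -2 * y ^ 2 + 2 * N ^ (k + 1) * K * Ca * s ^ 3 := by
    have := ev_pair_le ev k (fun w b => S.Dw w (S.n b)) (fun w b => S.box (S.Dw w (S.n b))) hK0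
      (fun w b h => hB w b h.le) (fun w b h => (ha R S H hw ev l1 (by linarith) (mid l1 le_rfl) w b
        h).trans (mul_le_mul_of_nonneg_left p1 hCa))
    have := (le_abs_self _).trans this
    rw [box_u H, map_sub, map_mul, map_mul, hy2, map_ofNat]
    linarith
  have Bb : ev (S.box (S.u (k + 1))) ≤
      -2 * z ^ 2 + 2 * N ^ (k + 2) * Cb * (y * (s ^ 4 + l2 * max 1 z)) := by
    have := ev_pair_le ev (k + 1) (fun w b => S.Dw w (S.n b)) (fun w b => S.box (S.Dw w (S.n b)))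
      hy0 (fun w b h => abs_Dn_le ev _ w b h) (fun w b h => (hb R S H hw ev _
        (le_trans (by linarith) (le_max_left l1 l2)) top w b h).trans
        (mul_le_mul_of_nonneg_left p2 hCb))
    have := (le_abs_self _).trans this
    rw [box_u H, map_sub, map_mul, map_mul, hz2, map_ofNat]
    linarith
  have G : |ev (S.gam (S.u k) (S.u (k + 1)))| ≤
      N * (2 * N ^ (k + 1) * K * (2 * N ^ (k + 2))) * (y ^ 2 * z) := by
    rw [Pre.gam, map_sum, mul_assoc]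
    refine abs_sum_le fun a => ?_
    have a1 := ev_pair_le ev k (fun w b => S.Dw w (S.n b)) (fun w b => S.Dw (a :: w) (S.n b)) hK0
      (fun w b h => hB w b h.le) (fun w b h => abs_Dn_le ev (k + 1) _ b (by simp [h]))
    have a2 := ev_pair_le ev (k + 1) (fun w b => S.Dw w (S.n b))
      (fun w b => S.Dw (a :: w) (S.n b)) hy0 (fun w b h => abs_Dn_le ev _ w b h)
      (fun w b h => abs_Dn_le ev (k + 2) _ b (by simp [h]))
    rw [D_u H.toIsHyp, D_u H.toIsHyp, map_mul, map_mul, map_mul, map_ofNat, abs_mul, abs_mul,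
      abs_mul, abs_two]
    refine (mul_le_mul (mul_le_mul_of_nonneg_left a1 zero_le_two)
      (mul_le_mul_of_nonneg_left a2 zero_le_two) (by positivity) (by positivity)).trans ?_
    apply le_of_eq; ring
  have key := hr (ev (S.u k)) y z s l2 (max 1 z) _ _ _ (S.ev_u_nonneg ev _) hA hy0 hs hs2' rfl hz0
    (by linarith) hl23 Ba Bb G
  have e1 : S.gam (algebraMap ℝ R Λ + S.u k) (S.u (k + 1)) = S.gam (S.u k) (S.u (k + 1)) := by
    simp only [Pre.gam, H.add, H.const, zero_add]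
  rw [H.box_mul, H.box_add, H.box_const, e1, ← hy2]
  simp only [map_sub, map_add, map_mul, AlgHom.commutes, map_ofNat, zero_add, ← hy2]
  have e2 : (algebraMap ℝ ℝ) Λ = Λ := rfl
  rw [e2]
  linarith

/-- the test function of the Bernstein argument -/
def tf (S : Mov R ι) (k : ℕ) (Λ : ℝ) (η : R) : R :=
  η * η * ((algebraMap ℝ R Λ + S.u k) * S.u (k + 1))

/-- the bound at a maximum point, unit scale -/
theorem at_max (k : ℕ) (hk : 1 ≤ k) {K : ℝ} (hK : 1 ≤ K) : ∃ Λ C : ℝ, 1 ≤ Λ ∧ 0 ≤ C ∧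
    ∀ (R : Type) [CommRing R] [Algebra ℝ R] (S : Mov R ι), S.IsMov → S.w = 0 →
      ∀ ev : R →ₐ[ℝ] ℝ, (∀ w b, w.length ≤ k → |ev (S.Dw w (S.n b))| ≤ K) →
      ∀ η : R, 0 < ev η → ev η ≤ 1 → ev (S.box η) ≤ 5 → ev (S.gam η η) ≤ 4 →
      (∀ a, ev (S.D a (tf S k Λ η)) = 0) → 0 ≤ ev (S.box (tf S k Λ η)) →
      ev (tf S k Λ η) ≤ C := by
  obtain ⟨Λ, A, C, hΛ, hA, hC, h⟩ := box_g (ι := ι) k hk hK
  refine ⟨Λ, (Λ + A) * (C + 34 * (Λ + A) + 1), hΛ, by positivity, ?_⟩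
  intro R _ _ S H hw ev hB η h0 h1 hb hg hD hbox
  obtain ⟨ha, hBg⟩ := h R S H hw ev hB
  unfold tf at *
  set g := (algebraMap ℝ R Λ + S.u k) * S.u (k + 1) with hgdef
  have hu0 := S.ev_u_nonneg ev k
  have hu1 := S.ev_u_nonneg ev (k + 1)
  have eg : ev g = (Λ + ev (S.u k)) * ev (S.u (k + 1)) := by
    simp only [hgdef, map_mul, map_add, AlgHom.commutes]; rfl
  have hy2 : √(ev (S.u (k + 1))) ^ 2 = ev (S.u (k + 1)) := Real.sq_sqrt hu1
  have e1 : ∑ a, S.D a η * S.D a (η * η * g) = η ^ 2 * S.gam η g + 2 * η * g * S.gam η η := by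
    simp only [Pre.gam, H.mul, Finset.mul_sum, ← Finset.sum_add_distrib]
    exact Finset.sum_congr rfl fun a _ => by ring
  have e2 : S.box (η * η * g) =
      η ^ 2 * S.box g + (2 * η * S.box η - 2 * S.gam η η) * g - 4 * η * S.gam η g := by
    have : S.gam (η * η) g = 2 * η * S.gam η g := by
      simp only [Pre.gam, H.mul, Finset.mul_sum]
      exact Finset.sum_congr rfl fun a _ => by ring
    rw [H.box_mul (η * η), H.box_mul η η, this]; ring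
  have e3 : ev (η ^ 2 * S.gam η g + 2 * η * g * S.gam η η) = 0 := by
    rw [← e1, map_sum]
    exact Finset.sum_eq_zero fun a _ => by rw [map_mul, hD, mul_zero]
  rw [e2] at hbox
  simp only [map_add, map_sub, map_mul, map_pow, map_ofNat] at e3 hbox
  have := real_max (Λ + A) C (by positivity) hC (ev η) √(ev (S.u (k + 1))) (ev g) (ev (S.box g))
    (ev (S.box η)) (ev (S.gam η η)) (ev (S.gam η g)) h0 h1 (by rw [eg]; positivity)
    (by rw [eg, hy2]; exact mul_le_mul_of_nonneg_right (by linarith) hu1)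
    (by rw [show (4 : ℕ) = 2 * 2 by rfl, pow_mul, hy2]; exact hBg) hb hg (by linarith) hbox
  rw [map_mul, map_mul, ← sq]
  exact this

end Alg

end Be

end Crest.Agent.N250

end
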