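import Crest.Agent.N250.Be.Abs
import Crest.Agent.N250.Re.Ring
import Crest.Agent.N250.MP.Max
import Crest.Agent.N250.T.Stm

/-!
# Row 250: interior Bernstein estimate `BernS` (helper76)
-/

set_option autoImplicit false
set_option linter.unusedSectionVars false
open Set Filter Topology
open scoped ContDiff InnerProductSpace
open Crest.GeometryTopology.MCF

noncomputable section

namespace Crest.Agent.N250

open Crest.Agent.N222

namespace Be

section Alg

variable {R : Type} [CommRing R] [Algebra ℝ R] {ι : Type} [Fintype ι] [DecidableEq ι]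

/-- parabolic rescaling of the algebraic data -/
def scale (S : Mov R ι) (r : ℝ) : Mov R ι where
  x a := algebraMap ℝ R r⁻¹ * S.x a
  D a f := algebraMap ℝ R r * S.D a f
  T f := algebraMap ℝ R r * algebraMap ℝ R r * S.T f
  n := S.n
  V := algebraMap ℝ R r * S.V

variable {S : Mov R ι}

theorem D_cmul (H : S.IsHyp) (r : ℝ) (a : ι) (f : R) :
    S.D a (algebraMap ℝ R r * f) = algebraMap ℝ R r * S.D a f := by
  rw [H.mul, H.const]; ring

theorem T_cmul (H : S.IsMov) (r : ℝ) (f : R) :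
    S.T (algebraMap ℝ R r * f) = algebraMap ℝ R r * S.T f := by
  rw [H.Tmul, H.Tconst]; ring

theorem scale_D (r : ℝ) (a : ι) (f : R) : (scale S r).D a f = algebraMap ℝ R r * S.D a f := rfl
theorem scale_T (r : ℝ) (f : R) :
    (scale S r).T f = algebraMap ℝ R r * algebraMap ℝ R r * S.T f := rfl
theorem scale_n (r : ℝ) (a : ι) : (scale S r).n a = S.n a := rfl
theorem scale_V (r : ℝ) : (scale S r).V = algebraMap ℝ R r * S.V := rfl
theorem scale_x (r : ℝ) (a : ι) : (scale S r).x a = algebraMap ℝ R r⁻¹ * S.x a := rfl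

theorem scale_isMov (H : S.IsMov) {r : ℝ} (hr : r ≠ 0) : (scale S r).IsMov := by
  have hc : algebraMap ℝ R r * algebraMap ℝ R r⁻¹ = 1 := by
    rw [← map_mul, mul_inv_cancel₀ hr, map_one]
  have hP : ∀ a b, (scale S r).P a b = S.P a b := fun a b => by
    rw [Pre.P, scale_D, scale_x, D_cmul H.toIsHyp, ← mul_assoc, hc, one_mul]; rfl
  refine ⟨Mov.isHyp_of _ (fun a f g => ?_) (fun a f g => ?_) (fun a s => ?_) H.nn (fun a b => ?_)
    (fun f => ?_) (fun f a b => ?_), fun f g => ?_, fun f g => ?_, fun s => ?_, fun a => ?_,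
    fun a f => ?_⟩
  · simp only [scale_D, H.add]; ring
  · simp only [scale_D, H.mul]; ring
  · simp only [scale_D, H.const, mul_zero]
  · rw [hP, H.Pn]; rfl
  · have := H.toIsHyp.n_D f
    simp only [scale_D, scale_n, mul_left_comm _ (algebraMap ℝ R r), ← Finset.mul_sum, this,
      mul_zero]
  · simp only [scale_D, scale_n, Mov.B, D_cmul H.toIsHyp, mul_mul_mul_comm _ _ (algebraMap ℝ R r),
      ← Finset.mul_sum]
    have := H.toIsHyp.DD_comm f a b
    simp only [Mov.B] at this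
    rw [this]; ring
  · simp only [scale_T, H.Tadd]; ring
  · simp only [scale_T, H.Tmul]; ring
  · simp only [scale_T, H.Tconst, mul_zero]
  · rw [scale_T, scale_x, T_cmul H, H.Tx, scale_V, scale_n]
    linear_combination (algebraMap ℝ R r * S.V * S.n a) * hc
  · simp only [scale_D, scale_T, scale_n, scale_V, Mov.B, Pre.gam, T_cmul H, mul_assoc,
      D_cmul H.toIsHyp]
    have := H.comm a f
    simp only [Mov.B, Pre.gam] at this
    have e1 : ∑ c, algebraMap ℝ R r * (algebraMap ℝ R r * (S.D c S.V * (algebraMap ℝ R r * S.D c f)))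
        = algebraMap ℝ R r ^ 3 * ∑ c, S.D c S.V * S.D c f := by
      rw [Finset.mul_sum]; exact Finset.sum_congr rfl fun c _ => by ring
    have e2 : ∑ c, algebraMap ℝ R r * (S.D a (S.n c) * (algebraMap ℝ R r * S.D c f))
        = algebraMap ℝ R r ^ 2 * ∑ c, S.D a (S.n c) * S.D c f := by
      rw [Finset.mul_sum]; exact Finset.sum_congr rfl fun c _ => by ring
    rw [this, e1, e2]; ring

theorem scale_w (hw : S.w = 0) (r : ℝ) : (scale S r).w = 0 := by
  have : (scale S r).w = algebraMap ℝ R r * S.w := by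
    simp only [Mov.w, Mov.h, Mov.B, scale_D, scale_V, scale_n, mul_add, Finset.mul_sum]
  rw [this, hw, mul_zero]

theorem scale_Dw (H : S.IsHyp) (r : ℝ) (w : List ι) (f : R) :
    (scale S r).Dw w f = algebraMap ℝ R (r ^ w.length) * S.Dw w f := by
  induction w with
  | nil => simp [Mov.Dw]
  | cons a w ih =>
    rw [Mov.Dw, ih, scale_D, D_cmul H, Mov.Dw, List.length_cons, pow_succ', map_mul, mul_assoc]

theorem scale_box (H : S.IsHyp) (r : ℝ) (f : R) :
    (scale S r).box f = algebraMap ℝ R (r ^ 2) * S.box f := by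
  simp only [Mov.box, Pre.lap, scale_D, scale_T, D_cmul H, sq, map_mul, mul_sub, Finset.mul_sum,
    mul_assoc]

/-- squared distance to `y` -/
def sq2 (S : Mov R ι) (y : ι → ℝ) : R :=
  ∑ a, (S.x a - algebraMap ℝ R (y a)) * (S.x a - algebraMap ℝ R (y a))

theorem D_sq2 (H : S.IsHyp) (y : ι → ℝ) (b : ι) : S.D b (sq2 S y) =
    2 * ((S.x b - algebraMap ℝ R (y b)) - S.n b * ∑ a, S.n a * (S.x a - algebraMap ℝ R (y a))) := by
  rw [← H.P_apply (fun a => S.x a - algebraMap ℝ R (y a)) b, sq2, H.toIsDS.D_sum, Finset.mul_sum]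
  refine Finset.sum_congr rfl fun a _ => ?_
  rw [H.mul, H.toIsDS.D_sub, H.const, Pre.P]; ring

theorem gam_sq2 (H : S.IsHyp) (y : ι → ℝ) : S.gam (sq2 S y) (sq2 S y) =
    4 * (sq2 S y - (∑ a, S.n a * (S.x a - algebraMap ℝ R (y a))) ^ 2) := by
  set m := ∑ a, S.n a * (S.x a - algebraMap ℝ R (y a)) with hm
  have e : ∀ b, S.D b (sq2 S y) * S.D b (sq2 S y) =
      4 * ((S.x b - algebraMap ℝ R (y b)) * (S.x b - algebraMap ℝ R (y b)))
      - 8 * m * (S.n b * (S.x b - algebraMap ℝ R (y b))) + 4 * m ^ 2 * (S.n b * S.n b) := by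
    intro b; rw [D_sq2 H, ← hm]; ring
  simp only [Pre.gam, e, Finset.sum_add_distrib, Finset.sum_sub_distrib, ← Finset.mul_sum, ← hm,
    H.nn]
  rw [sq2]; ring

theorem box_sq2 (H : S.IsMov) (hw : S.w = 0) (y : ι → ℝ) :
    S.box (sq2 S y) = -2 * ((Fintype.card ι : R) - 1) := by
  have e : ∀ a, S.box ((S.x a - algebraMap ℝ R (y a)) * (S.x a - algebraMap ℝ R (y a))) =
      -2 * S.P a a := by
    intro a
    have : S.gam (S.x a - algebraMap ℝ R (y a)) (S.x a - algebraMap ℝ R (y a)) = S.P a a := by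
      rw [← H.toIsDS.PP a a]
      simp only [Pre.gam, H.toIsDS.D_sub, H.const, sub_zero]
      exact Finset.sum_congr rfl fun b _ => by rw [H.symm a b]; rfl
    rw [H.box_mul, H.box_sub, H.mcf_x hw, H.box_const, this]; ring
  rw [sq2, H.box_sum, ← H.toIsHyp.tr_P, Finset.mul_sum]
  exact Finset.sum_congr rfl fun a _ => e a

/-- the cut-off function -/
def cut (S : Mov R ι) (y : ι → ℝ) (τ : R) : R := τ - sq2 S y

theorem box_cut (H : S.IsMov) (hw : S.w = 0) (y : ι → ℝ) {τ : R} (h1 : S.T τ = 1)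
    (h2 : ∀ a, S.D a τ = 0) : S.box (cut S y τ) = 1 + 2 * ((Fintype.card ι : R) - 1) := by
  rw [cut, H.box_sub, box_sq2 H hw]
  simp only [Mov.box, Pre.lap, h1, h2, H.toIsDS.D_zero, Finset.sum_const_zero]; ring

theorem gam_cut (H : S.IsHyp) (y : ι → ℝ) {τ : R} (h2 : ∀ a, S.D a τ = 0) :
    S.gam (cut S y τ) (cut S y τ) = S.gam (sq2 S y) (sq2 S y) := by
  simp only [Pre.gam, cut, H.toIsDS.D_sub, h2, zero_sub, neg_mul_neg]

end Alg

open Mv

theorem PC_sub {X p : ST} {r : ℝ} (hr : 0 < r) (hp : p ∈ PC X (r / 2)) : PC p (r / 2) ⊆ PC X r := by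
  rintro q ⟨h1, h2, h3⟩
  obtain ⟨h4, h5, h6⟩ := hp
  refine ⟨?_, by nlinarith, h3.trans h6⟩
  rw [Metric.mem_ball] at *
  linarith [dist_triangle q.1 p.1 X.1]

theorem norm_sq_eq (v : E) : ‖v‖ ^ 2 = ∑ a, v a * v a := by
  rw [← real_inner_self_eq_norm_sq, inner_eq_sum]

/-- the step of the induction -/
theorem step (k : ℕ) (hk : 1 ≤ k) {K : ℝ} (hK : 1 ≤ K) : ∃ C : ℝ, 0 ≤ C ∧
    ∀ (F : Mv) (X : ST) (r : ℝ), F.IsMCF → 0 < r → F.Proper (PC X r) → X ∈ F.M →
      (∀ p ∈ F.M ∩ PC X r, ∀ w b, w.length ≤ k → |F.DL w (F.nu b) p| ≤ K / r ^ w.length) →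
      ∀ w b, w.length = k + 1 → |F.DL w (F.nu b) X| ≤ C / r ^ w.length := by
  obtain ⟨Λ, C, hΛ, hC, h⟩ := at_max (ι := Fin 3) k hk hK
  refine ⟨√(2 * C), Real.sqrt_nonneg _, ?_⟩
  intro F X r hF hr hP hX hB
  have hR := hF.1
  set S := scale hR.mov r with hS
  have HS : S.IsMov := scale_isMov hR.isMov hr.ne'
  have hw : S.w = 0 := scale_w hF.mov_w r
  have evD : ∀ {p} (hp : p ∈ F.M) w b, ev hp (S.Dw w (S.n b)) = r ^ w.length * F.DL w (F.nu b) p := by
    intro p hp w b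
    rw [hS, scale_Dw hR.isHyp, scale_n, hR.mov_n, hR.mov_Dw, map_mul, AlgHom.commutes, ev_mk]; rfl
  let τ : F.SmR := algebraMap ℝ _ (3 / 4 - X.2 / r ^ 2) +
    algebraMap ℝ _ (1 / r ^ 2) * mk' (fun q => q.2) sm_t
  have τT : S.T τ = 1 := by
    rw [hS, scale_T, hR.isMov.Tadd, hR.isMov.Tconst, T_cmul hR.isMov, hR.mov_T]
    refine SmR_ext fun p hp => ?_
    have : F.Dt (fun q => q.2) p = 1 := hR.td_t hp (hR.tg_vel hp)
    simp only [map_mul, map_add, AlgHom.commutes, ev_mk, this, map_zero, map_one,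
      Algebra.algebraMap_self, RingHom.id_apply]
    field_simp
    simp
  have τD : ∀ a, S.D a τ = 0 := fun a => by
    rw [hS, scale_D, hR.isMov.add, hR.isMov.const, D_cmul hR.isHyp, hR.mov_D]
    refine SmR_ext fun p hp => ?_
    have : F.D a (fun q => q.2) p = 0 := hR.td_t hp (hR.tg_PL hp _)
    simp only [map_mul, map_add, ev_mk, this, map_zero, mul_zero, add_zero]
  let y : Fin 3 → ℝ := fun a => r⁻¹ * X.1 a
  have evq : ∀ {p} (hp : p ∈ F.M), ev hp (sq2 S y) = ‖p.1 - X.1‖ ^ 2 / r ^ 2 := by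
    intro p hp
    rw [norm_sq_eq, sq2, map_sum, Finset.sum_div]
    refine Finset.sum_congr rfl fun a _ => ?_
    simp only [hS, scale_x, hR.mov_x, map_mul, map_sub, AlgHom.commutes, ev_mk,
      Algebra.algebraMap_self, RingHom.id_apply, PiLp.sub_apply, y]
    change (r⁻¹ * p.1 a - _) * (r⁻¹ * p.1 a - _) = _
    field_simp
  let e : ST → ℝ := fun p => 3 / 4 - (X.2 - p.2) / r ^ 2 - ‖p.1 - X.1‖ ^ 2 / r ^ 2
  have eve : ∀ {p} (hp : p ∈ F.M), ev hp (cut S y τ) = e p := by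
    intro p hp
    rw [cut, map_sub, evq hp]
    simp only [τ, e, map_mul, map_add, AlgHom.commutes, ev_mk, Algebra.algebraMap_self,
      RingHom.id_apply]
    ring
  have ec : Continuous e := by fun_prop
  have hr2 : 0 < r ^ 2 := by positivity
  let L : Set ST := {p | p.2 ≤ X.2 ∧ 0 ≤ e p}
  have Lb : ∀ p ∈ L, ‖p.1 - X.1‖ ^ 2 ≤ 3 / 4 * r ^ 2 ∧ X.2 - p.2 ≤ 3 / 4 * r ^ 2 := by
    rintro p ⟨h1, h2⟩
    have a1 : 0 ≤ (X.2 - p.2) / r ^ 2 := div_nonneg (by linarith) hr2.le
    have a2 : 0 ≤ ‖p.1 - X.1‖ ^ 2 / r ^ 2 := by positivity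
    simp only [e] at h2
    exact ⟨(div_le_iff₀ hr2).1 (by linarith), (div_le_iff₀ hr2).1 (by linarith)⟩
  have LP : L ⊆ PC X r := fun p hp => by
    obtain ⟨a1, a2⟩ := Lb p hp
    refine ⟨?_, by linarith, hp.1⟩
    rw [mem_ball_iff_norm]
    exact lt_of_pow_lt_pow_left₀ 2 hr.le (by linarith)
  have Lc : IsCompact L := by
    refine ((isCompact_closedBall X.1 r).prod (isCompact_Icc (a := X.2 - r ^ 2) (b := X.2))).of_isClosed_subset
      ((isClosed_le continuous_snd continuous_const).inter (isClosed_le continuous_const ec)) ?_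
    intro p hp
    obtain ⟨a1, a2, a3⟩ := LP hp
    exact ⟨Metric.ball_subset_closedBall a1, a2.le, a3⟩
  have Kc : IsCompact (F.M ∩ L) := by
    have : F.M ∩ L = L ∩ closure F.M := by
      ext p
      exact ⟨fun hp => ⟨hp.2, subset_closure hp.1⟩, fun hp => ⟨hP p hp.2 (LP hp.1), hp.1⟩⟩
    rw [this]; exact Lc.inter_right isClosed_closure
  have eX : e X = 3 / 4 := by simp [e]
  have XL : X ∈ L := ⟨le_rfl, by rw [eX]; norm_num⟩
  obtain ⟨g, hg, hge⟩ := exists_mk (tf S k Λ (cut S y τ))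
  obtain ⟨p, ⟨hpM, hpL⟩, hmax⟩ := Kc.exists_isMaxOn ⟨X, hX, XL⟩
    (hg.continuousOn.mono inter_subset_left)
  have gp : g p ≤ C := by
    rw [← ev_mk hpM g hg, ← hge]
    rcases hpL.2.eq_or_lt with h0 | h0
    · rw [tf, map_mul, map_mul, eve hpM, ← h0]; simpa using hC
    have loc : IsLocalMaxOn g (F.M ∩ {q | q.2 ≤ p.2}) p := by
      have : ∀ᶠ q in 𝓝 p, 0 < e q := ec.continuousAt.eventually (lt_mem_nhds h0)
      filter_upwards [nhdsWithin_le_nhds this, self_mem_nhdsWithin] with q h1 h2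
        using hmax ⟨h2.1, le_trans h2.2 hpL.1, h1.le⟩
    have loc' : IsLocalMaxOn g (F.M ∩ {q | q.2 = p.2}) p :=
      loc.filter_mono (nhdsWithin_mono _ fun q hq => ⟨hq.1, le_of_eq hq.2⟩)
    obtain ⟨a1, a2⟩ := Lb p hpL
    refine h _ S HS hw (ev hpM) (fun w b hl => ?_) _ (by rwa [eve hpM]) ?_ ?_ ?_ (fun a => ?_) ?_
    · rw [evD hpM, abs_mul, abs_of_pos (by positivity), mul_comm, ← le_div_iff₀ (by positivity)]
      exact hB p ⟨hpM, LP hpL⟩ w b hl
    · rw [eve hpM]
      have b1 : 0 ≤ (X.2 - p.2) / r ^ 2 := div_nonneg (by linarith [hpL.1]) hr2.le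
      have b2 : 0 ≤ ‖p.1 - X.1‖ ^ 2 / r ^ 2 := by positivity
      simp only [e]; linarith
    · rw [box_cut HS hw y τT τD]
      simp only [map_add, map_mul, map_sub, map_one, map_ofNat, map_natCast, Fintype.card_fin]
      norm_num
    · rw [gam_cut HS.toIsHyp y τD, gam_sq2 HS.toIsHyp, map_mul, map_sub, map_pow, evq hpM, map_ofNat]
      have b1 : ‖p.1 - X.1‖ ^ 2 / r ^ 2 ≤ 3 / 4 := (div_le_iff₀ hr2).2 a1
      nlinarith [sq_nonneg (ev hpM (∑ a, S.n a * (S.x a - algebraMap ℝ _ (y a))))]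
    · rw [hge, hS, scale_D, hR.mov_D, map_mul, ev_mk,
        (MP.max_slice hR hpM ((hg p hpM).of_le (by norm_cast)) loc').1 a, mul_zero]
    · rw [hge, hS, scale_box hR.isHyp, hR.mov_box, map_mul, ev_mk, AlgHom.commutes]
      exact mul_nonneg hr2.le (MP.max_box hR hpM ((hg p hpM).of_le (by norm_cast)) loc)
  have gX : g X ≤ C := (hmax ⟨hX, XL⟩).trans gp
  rw [← ev_mk hX g hg, ← hge, tf, map_mul, map_mul, map_mul, map_add, eve hX, eX,
    AlgHom.commutes] at gX
  have u0 := S.ev_u_nonneg (ev hX) k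
  have u1 := S.ev_u_nonneg (ev hX) (k + 1)
  have e2 : (algebraMap ℝ ℝ) Λ = Λ := rfl
  rw [e2] at gX
  have hu : ev hX (S.u (k + 1)) ≤ 2 * C := by nlinarith [mul_nonneg u0 u1]
  intro w b hl
  have := (abs_Dn_le (ev hX) _ w b hl).trans (Real.sqrt_le_sqrt hu)
  rwa [evD hX, abs_mul, abs_of_pos (by positivity), mul_comm, ← le_div_iff₀ (by positivity)] at this

/-- the estimate at the centre -/
theorem centre (k : ℕ) : ∃ K : ℝ, 1 ≤ K ∧
    ∀ (F : Mv) (X : ST) (r : ℝ), F.IsMCF → 0 < r → F.Proper (PC X r) →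
      (∀ p ∈ F.M ∩ PC X r, F.A2 p ≤ 1 / r ^ 2) → X ∈ F.M →
      ∀ w b, w.length ≤ k + 1 → |F.DL w (F.nu b) X| ≤ K / r ^ w.length := by
  induction k with
  | zero =>
    refine ⟨1, le_rfl, fun F X r hF hr hP hA hX w b hl => ?_⟩
    match w, hl with
    | [], _ =>
      have := hF.1.norm_n hX
      simpa [DL, nu, this] using (PiLp.norm_apply_le (F.n X) b)
    | [a], _ =>
      have h1 := hA X ⟨hX, Metric.mem_ball_self hr, sub_lt_self _ (by positivity), le_rfl⟩
      have h2 : F.A a b X * F.A a b X ≤ F.A2 X := by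
        simp only [A2, Finset.sum_apply, Pi.mul_apply]
        refine le_trans ?_ (Finset.single_le_sum (f := fun a => ∑ b, F.A a b X * F.A a b X)
          (fun a _ => Finset.sum_nonneg fun b _ => mul_self_nonneg _) (Finset.mem_univ a))
        exact Finset.single_le_sum (f := fun b => F.A a b X * F.A a b X)
          (fun b _ => mul_self_nonneg _) (Finset.mem_univ b)
      change |F.A a b X| ≤ 1 / r ^ 1
      refine abs_le_of_sq_le_sq' ?_ (by positivity) |> abs_le.2
      rw [sq, pow_one, div_pow, one_pow]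
      exact h2.trans h1
  | succ k ih =>
    obtain ⟨K, hK, ih⟩ := ih
    obtain ⟨C, hC, hs⟩ := step (k + 1) (by omega) hK
    refine ⟨max K (C * 2 ^ (k + 2)), hK.trans (le_max_left _ _), ?_⟩
    intro F X r hF hr hP hA hX w b hl
    rcases Nat.lt_or_ge w.length (k + 2) with h' | h'
    · exact (ih F X r hF hr hP hA hX w b (by omega)).trans
        (div_le_div_of_nonneg_right (le_max_left _ _) (by positivity))
    have e : w.length = k + 1 + 1 := by omega
    have hX2 : X ∈ PC X (r / 2) :=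
      ⟨Metric.mem_ball_self (by positivity), sub_lt_self _ (by positivity), le_rfl⟩
    have := hs F X (r / 2) hF (by positivity) (fun p h1 h2 => hP p h1 (PC_sub hr hX2 h2)) hX
      (fun p hp w b hl => ih F p (r / 2) hF (by positivity)
        (fun q h1 h2 => hP q h1 (PC_sub hr hp.2 h2))
        (fun q hq => (hA q ⟨hq.1, PC_sub hr hp.2 hq.2⟩).trans
          (one_div_le_one_div_of_le (by positivity) (by nlinarith))) hp.1 w b hl) w b e
    refine this.trans ?_
    rw [e, div_pow, div_div_eq_mul_div]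
    exact div_le_div_of_nonneg_right (le_max_right _ _) (by positivity)

end Be

theorem bernS_holds : BernS := by
  intro k
  obtain ⟨K, hK, h⟩ := Be.centre k
  refine ⟨K * 2 ^ k, fun F X r hF hr hP hA p hp b w hl => ?_⟩
  have := h F p (r / 2) hF (by positivity) (fun q h1 h2 => hP q h1 (Be.PC_sub hr hp.2 h2))
    (fun q hq => (hA q ⟨hq.1, Be.PC_sub hr hp.2 hq.2⟩).trans
      (one_div_le_one_div_of_le (by positivity) (by nlinarith))) hp.1 w b (by omega)
  rwa [hl, div_pow, div_div_eq_mul_div] at this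

end Crest.Agent.N250

end
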